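import Vale.Agent.P073.H79.PE7

/-!
# P073, [PRE-2] (`p = 2`), [E6]: the data of `Pre` from `PE`
-/

namespace Vale.Agent.P073.H340

open MeasureTheory Set Filter Topology Metric Vale.Agent.P073.St Vale.Agent.P073.AB
open Vale.Agent.P073.SQ (ev)
open _root_.P073 (ConHomeo)
open _root_.P073.Net (dyc dyo IsTile SizeFn len)
open Vale.Agent.P073.H73 (MinEdge Bix ctr WLe segP onSeg Pre)
open scoped ENNReal

namespace PE

variable {p ε δ : ℝ} {Φ : ℕ → Finset (Fin 3 → ℤ) → ((Fin 3 → ℤ) → V → V) → ℝ}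
  {Ω Λ : Set V} {g f : V → V} {F : V → Mat} (D : PE p ε δ Φ Ω Λ g f F)

/-- **[E3]** the condition on the minimal squares -/
def Cond : Prop := ∀ s, MinSq D.v D.I s → (∀ b ∈ D.Bx, ¬ squ D.v s ⊆ b.cell D.A) →
  ∀ x ∈ squ D.v s, ∀ m z, IsTile D.ρ 0 m z → D.h.toFun x ∈ dyc 0 m z → D.h.toFun x ≠ D.c m z ∧
    ∀ y ∈ squ D.v s, ‖D.h.toFun x - D.h.toFun y‖ ≤ δ * ‖D.h.toFun x - D.c m z‖

/-- **[E3]** the weights of the minimal edges -/
def Wle : Prop := ∀ e, MinEdge D.v D.I e → (∀ b ∈ D.Bx, ¬ edge D.v e ⊆ b.cell D.A) →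
  WLe 0 D.ρ D.c D.h.toFun (segP D.v e) (D.We e)

/-- **[E5]** the weighted sum -/
def SumLe : Prop := ∑' i : {i : Idx // i ∈ D.I ∧ ∀ b ∈ D.Bx, ∀ x ∈ dyc D.v i.1 i.2,
      ∀ y ∈ b.cell D.A, 1 / 2 ^ D.nr < ‖x - y‖},
    ∑' s : {s : Idx × Fin 3 // MinSq D.v D.I s ∧ squ D.v s ⊆ dyc D.v i.1.1 i.1.2},
      ∑' e : {e : Idx × Fin 3 // MinEdge D.v D.I e ∧ edge D.v e ⊆ squ D.v s.1},
        ENNReal.ofReal (1 / 2 ^ i.1.1 * (1 / 2 ^ s.1.1.1)) *
          (ENNReal.ofReal ((1 / 2 ^ e.1.1.1) ^ (1 - p)) * D.ell e.1 ^ p) ≤ ENNReal.ofReal ε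

/-- the data of `SpecPre` -/
noncomputable def pre (hcond : D.Cond) (hwle : D.Wle) (hsum : D.SumLe) :
    Pre p ε δ 16 Φ Ω Λ f F where
  v := D.v
  J := D.J
  A := D.A
  L := D.L
  aff := D.aff
  inj z hz x y hxy := by
    have h1 := D.H.below z hz (x - y)
    rw [map_sub, hxy, sub_self, norm_zero] at h1
    have h2 : ‖x - y‖ ≤ 0 := by
      by_contra hcon
      have := mul_pos D.H.θ0 (not_le.1 hcon)
      linarith
    exact sub_eq_zero.1 (norm_le_zero_iff.1 h2)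
  N := D.N
  ratL := D.dyL
  ratA := D.dyA
  ρ := D.ρ
  size := D.size79
  tsmall := D.tsmall
  c := D.c
  cmem := D.mid
  B := D.Bx
  bJ := H83.gB_J D.H
  blt := H83.gB_lt D.H D.mmt
  btile := H83.gB_tile D.H (by have := D.mmt; have := D.mtm; omega) D.mtm
  I := D.I
  part := D.part79
  nr := D.nr
  mt := D.m'
  mle := D.mnr
  bmt := H83.gB_mt D.H (by have := D.mmt; have := D.mtm; omega)
  blo := H83.gB_lo D.H (by have := D.mmt; have := D.mtm; omega) D.mtm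
  bhi := H83.gB_hi D.H (by have := D.mmt; have := D.mtm; omega) D.mtm
  unif := D.unif
  sep := D.sep
  h := D.h
  near := D.near
  hA b hb x hx := (D.hA hb hx).2
  zone := D.zone
  cond := hcond
  ℓ := D.ell
  len e he hb := ⟨D.We e, hwle e he hb, le_rfl⟩
  sum := hsum
  cut := D.cut
  s1 := D.s1
  s2 := D.s2
  K := D.K
  Ksub := D.Ksub
  Kmeas := D.Kc.isClosed.measurableSet
  Kvol := D.Kvol
  osc := D.oscI

end PE

end Vale.Agent.P073.H340
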