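import Vale.Agent.P073.H687.BeamT
import Vale.Agent.P073.H239.FSpec1

/-!
# P073, block B10, rank one: **[SEG-B]**, the choice of the segments

The beams of `H687.BeamT` (good dyadic intervals of the line, the curve is close to `t e₀ + A z`) in
the form of the families `PFam`: one segment in every beam, parallel to `e₀`; its neighbourhoods are
disjoint, contained in `Λ` and close to the curve.
-/

open Set Metric Topology Filter MeasureTheory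
open scoped ENNReal

namespace Vale.Agent.P073.H79.SegB

open Vale.Agent.P073.St (V)
open Vale.Agent.P073.SQ (ev)
open Vale.Agent.P073.H253 (iv ivm BeamsAt)
open Vale.Agent.P073.H239 (PFam bx dd bx_eq dd_le dd_nonneg fn SpecSegB)
open Vale.Agent.P073.H687.BeamT (ivm_sub mem_ivm_of iv_sub_ivm near_good gint mem_gint card_gint
  card_beams lost_le)

/-- the lower end of the segment `z` -/
noncomputable def slo (v₀ : ℝ) (n : ℕ) (A : ℤ → V) (κ ϑ : ℝ) (t : ℤ → Fin 3 → ℝ) (z : ℤ) : V :=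
  fun j => if j = 0 then v₀ + (z + 1 / 2) / 2 ^ n + A z 0 - (1 / 2 - 2 * ϑ + 4 * κ) / 2 ^ n
    else t z j

/-- the upper end of the segment `z` -/
noncomputable def shi (v₀ : ℝ) (n : ℕ) (A : ℤ → V) (κ ϑ : ℝ) (t : ℤ → Fin 3 → ℝ) (z : ℤ) : V :=
  fun j => if j = 0 then v₀ + (z + 1 / 2) / 2 ^ n + A z 0 + (1 / 2 - 2 * ϑ + 4 * κ) / 2 ^ n
    else t z j

theorem of_mem_bx {v₀ : ℝ} {n : ℕ} {A : ℤ → V} {κ ϑ : ℝ} {t : ℤ → Fin 3 → ℝ} {z : ℤ} {R : ℝ}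
    {y : V} (hy : y ∈ bx (slo v₀ n A κ ϑ t z) (shi v₀ n A κ ϑ t z) R) :
    |y 0 - (v₀ + (z + 1 / 2) / 2 ^ n + A z 0)| ≤ (1 / 2 - 2 * ϑ + 4 * κ) / 2 ^ n + R ∧
      ∀ j, j ≠ 0 → |y j - t z j| ≤ R := by
  rw [bx_eq] at hy
  obtain ⟨h1, h2⟩ := hy
  constructor
  · have a1 := h1 0
    have a2 := h2 0
    simp only [slo, shi, if_true] at a1 a2
    rw [abs_le]
    constructor <;> linarith
  · intro j hj
    have a1 := h1 j
    have a2 := h2 j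
    simp only [slo, shi, if_neg hj] at a1 a2
    rw [abs_le]
    constructor <;> linarith

variable {γ : ℝ → V} {ψ : ℝ → ℝ} {κ ϑ b : ℝ} {Λ : Set V} {v₀ : ℝ} {n : ℕ} {J : Finset ℤ}
  {A : ℤ → V}

/-- **the family of segments** -/
theorem exists_segs (H : BeamsAt γ ψ κ ϑ Λ v₀ n J A) (hb : 0 < b) (hb1 : b ≤ 1 / 2)
    (hκ : 0 < κ) (hκϑ : κ ≤ b * ϑ / 32) (hϑ : ϑ ≤ 1 / 4) {mt : ℕ} (hmt : 1 / 2 ^ mt ≤ κ / 2 ^ n) :
    ∃ (lo hi : {z // z ∈ J} → V),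
      (∀ l : Fin 3, l ≠ 0 → PFam Λ b (fun _ => l) lo hi (fun _ => 10 * κ / b / 2 ^ n)) ∧
      (∀ z, ∀ j, j ≠ 0 → ∃ t : ℤ, lo z j = t / 2 ^ mt) ∧
      (∀ z : {z // z ∈ J}, ∀ y ∈ bx (lo z) (hi z) (10 * κ / b / 2 ^ n), ∃ s ∈ iv v₀ n z.1,
        ‖y - γ s‖ ≤ 1 / 2 ^ n) ∧
      ∀ z : {z // z ∈ J}, ∀ u ∈ ivm v₀ (2 * ϑ) n z.1, ∀ y, ‖y - γ u‖ ≤ κ / 2 ^ n →
        ∀ j, j ≠ 0 → |y j - lo z j| ≤ b * (10 * κ / b / 2 ^ n - dd j (lo z) (hi z) y) -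
          κ / 2 ^ n := by
  have hn : (0:ℝ) < 2 ^ n := by positivity
  have hm : (0:ℝ) < 2 ^ mt := by positivity
  have hϑ0 : 0 < ϑ := by
    have : 0 < b * ϑ := by linarith
    exact (pos_iff_pos_of_mul_pos this).1 hb
  have hκb : κ / b ≤ ϑ / 32 := by
    rw [div_le_iff₀ hb]; linarith
  have hκ1 : κ ≤ ϑ / 64 := by
    have : b * ϑ ≤ 1 / 2 * ϑ := by gcongr
    linarith
  set t : ℤ → Fin 3 → ℤ := fun z j => ⌊A z j * 2 ^ mt⌋ with ht
  have htz : ∀ z j, |(t z j : ℝ) / 2 ^ mt - A z j| ≤ κ / 2 ^ n := by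
    intro z j
    refine le_trans ?_ hmt
    have h1 := Int.floor_le (A z j * 2 ^ mt)
    have h2 := Int.lt_floor_add_one (A z j * 2 ^ mt)
    have h3 : (t z j : ℝ) / 2 ^ mt ≤ A z j := by rw [div_le_iff₀ hm]; exact h1
    have h4 : A z j < (t z j : ℝ) / 2 ^ mt + 1 / 2 ^ mt := by
      rw [← add_div, lt_div_iff₀ hm]; exact h2
    rw [abs_le]
    constructor <;> linarith
  obtain ⟨R, hR⟩ : ∃ R : ℝ, R = 10 * κ / b / 2 ^ n := ⟨_, rfl⟩
  have hR0 : 0 < R := by rw [hR]; positivity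
  have hR1 : R ≤ 10 / 32 * ϑ / 2 ^ n := by
    rw [hR]
    gcongr
    have : 10 * κ / b = 10 * (κ / b) := by ring
    rw [this]
    linarith
  have hκn : κ / 2 ^ n ≤ 1 / 64 * ϑ / 2 ^ n := by gcongr; linarith
  obtain ⟨q, hq⟩ : ∃ q : ℝ, q = ϑ / 2 ^ n := ⟨_, rfl⟩
  have hq0 : 0 < q := by rw [hq]; positivity
  have hR2 : R ≤ 10 / 32 * q := by
    rw [hq]; linarith [show 10 / 32 * ϑ / 2 ^ n = 10 / 32 * (ϑ / 2 ^ n) by ring]
  have hκq : κ / 2 ^ n ≤ 1 / 64 * q := by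
    rw [hq]; linarith [show 1 / 64 * ϑ / 2 ^ n = 1 / 64 * (ϑ / 2 ^ n) by ring]
  have hq1 : q ≤ 1 / 4 * (1 / 2 ^ n) := by
    rw [hq, div_eq_mul_one_div ϑ]
    gcongr
  have hκn0 : 0 < κ / 2 ^ n := by positivity
  have hn1 : 0 < 1 / (2:ℝ) ^ n := by positivity
  rw [← hR]
  set tt : ℤ → Fin 3 → ℝ := fun z j => t z j / 2 ^ mt with htt
  -- points of the boxes
  have hbox : ∀ z, ∀ y ∈ bx (slo v₀ n A κ ϑ tt z) (shi v₀ n A κ ϑ tt z) R,
      y 0 - A z 0 ∈ ivm v₀ ϑ n z ∧ ∀ j, j ≠ 0 → |y j - A z j| ≤ R + κ / 2 ^ n := by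
    intro z y hy
    obtain ⟨h1, h2⟩ := of_mem_bx hy
    refine ⟨mem_ivm_of (h1.trans ?_), fun j hj => ?_⟩
    · have e1 : (1 / 2 - 2 * ϑ + 4 * κ) / 2 ^ n = (1 / 2 - ϑ) / 2 ^ n - ϑ / 2 ^ n +
        4 * (κ / 2 ^ n) := by ring
      rw [e1, ← hq]
      linarith
    · have h3 : y j - A z j = (y j - tt z j) + (tt z j - A z j) := by ring
      rw [h3]
      exact (abs_add_le _ _).trans (add_le_add (h2 j hj) (htz z j))
  have hnorm : ∀ z, ∀ y ∈ bx (slo v₀ n A κ ϑ tt z) (shi v₀ n A κ ϑ tt z) R,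
      ‖y - ((y 0 - A z 0) • (ev 0 : V) + A z)‖ ≤ R + κ / 2 ^ n := by
    intro z y hy
    obtain ⟨-, h2⟩ := hbox z y hy
    rw [pi_norm_le_iff_of_nonneg (by positivity)]
    intro j
    rw [Real.norm_eq_abs]
    by_cases hj : j = 0
    · subst hj
      have : (y - ((y 0 - A z 0) • (ev 0 : V) + A z)) 0 = 0 := by
        simp [ev]
      rw [this, abs_zero]
      positivity
    · have : (y - ((y 0 - A z 0) • (ev 0 : V) + A z)) j = y j - A z j := by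
        simp [ev, hj]
      rw [this]
      exact h2 j hj
  have hlt : ∀ z ∈ J, ∀ z' ∈ J, z < z' →
      Disjoint (bx (slo v₀ n A κ ϑ tt z) (shi v₀ n A κ ϑ tt z) R)
        (bx (slo v₀ n A κ ϑ tt z') (shi v₀ n A κ ϑ tt z') R) := by
    intro z hz z' hz' hzz
    rw [Set.disjoint_left]
    intro y hy hy'
    have h3 := H.sep z hz z' hz' hzz _ (hbox z y hy).1 _ (hbox z' y hy').1
    rw [← hq] at h3
    linarith
  refine ⟨fun z => slo v₀ n A κ ϑ tt z.1, fun z => shi v₀ n A κ ϑ tt z.1, fun l hl => ⟨hb, hb1,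
    fun _ => hR0, fun z => ?_, fun z y hy => ?_, fun z z' hzz => ?_⟩, fun z j hj => ⟨t z.1 j, ?_⟩,
    fun z y hy => ?_, fun z u hu y hy j hj => ?_⟩
  · simp only [slo, shi, if_neg hl]
  · refine H.inside z.1 z.2 (y 0 - A z.1 0) (ivm_sub hϑ0.le (hbox z.1 y hy).1) ?_
    rw [mem_closedBall, dist_eq_norm]
    refine (hnorm z.1 y hy).trans ?_
    linarith
  · have hne : z.1 ≠ z'.1 := fun h => hzz (Subtype.ext h)
    rcases lt_or_gt_of_ne hne with h | h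
    · exact hlt z.1 z.2 z'.1 z'.2 h
    · exact (hlt z'.1 z'.2 z.1 z.2 h).symm
  · simp only [slo, if_neg hj, htt]
  · have h1 := ivm_sub hϑ0.le (hbox z.1 y hy).1
    refine ⟨y 0 - A z.1 0, h1, ?_⟩
    have h2 := H.near z.1 z.2 _ h1
    have e : y - γ (y 0 - A z.1 0) = (y - ((y 0 - A z.1 0) • (ev 0 : V) + A z.1)) -
        (γ (y 0 - A z.1 0) - ((y 0 - A z.1 0) • (ev 0 : V) + A z.1)) := by abel
    rw [e]
    refine (norm_sub_le _ _).trans ((add_le_add (hnorm z.1 y hy) h2).trans ?_)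
    linarith
  · obtain ⟨h8, h9⟩ := near_good H hκ hϑ0.le z.2 hu hy
    have h10 : ∀ i, i ≠ 0 → |y i - tt z.1 i| ≤ 5 * (κ / 2 ^ n) := by
      intro i hi
      have h3 : y i - tt z.1 i = (y i - A z.1 i) - (tt z.1 i - A z.1 i) := by ring
      rw [h3]
      refine (abs_sub _ _).trans ?_
      have h4 := h9 i hi
      have h5 := htz z.1 i
      have e4 : 4 * κ / 2 ^ n = 4 * (κ / 2 ^ n) := by ring
      rw [e4] at h4
      linarith
    have h11 : dd j (slo v₀ n A κ ϑ tt z.1) (shi v₀ n A κ ϑ tt z.1) y ≤ 5 * (κ / 2 ^ n) := by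
      rw [dd_le (by positivity)]
      intro p _
      unfold fn
      by_cases hp : p.1 = 0
      · rw [hp]
        rw [abs_le] at h8
        split_ifs
        · simp only [shi, if_true]
          linarith [h8.2]
        · simp only [slo, if_true]
          linarith [h8.1]
      · have h12 := h10 p.1 hp
        rw [abs_le] at h12
        split_ifs
        · simp only [shi, if_neg hp]
          linarith [h12.2]
        · simp only [slo, if_neg hp]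
          linarith [h12.1]
    have h13 : slo v₀ n A κ ϑ tt z.1 j = tt z.1 j := by simp only [slo, if_neg hj]
    show |y j - slo v₀ n A κ ϑ tt z.1 j| ≤ b * (R - dd j (slo v₀ n A κ ϑ tt z.1)
      (shi v₀ n A κ ϑ tt z.1) y) - κ / 2 ^ n
    rw [h13]
    refine (h10 j hj).trans ?_
    have h14 : b * R = 10 * (κ / 2 ^ n) := by
      rw [hR]; field_simp
    have h15 : b * dd j (slo v₀ n A κ ϑ tt z.1) (shi v₀ n A κ ϑ tt z.1) y ≤
        1 / 2 * (5 * (κ / 2 ^ n)) := mul_le_mul hb1 h11 (dd_nonneg _) (by norm_num)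
    rw [mul_sub, h14]
    linarith

/-- **[SEG-B]** -/
theorem specSegB : SpecSegB := by
  intro ε b hε hb hb1
  set ϑ : ℝ := min (1 / 4) (ε / 14) with hϑ
  have hϑ0 : 0 < ϑ := lt_min (by norm_num) (by positivity)
  have hϑ1 : ϑ ≤ 1 / 4 := min_le_left _ _
  have hϑε : 14 * ϑ ≤ ε := by
    have : ϑ ≤ ε / 14 := min_le_right _ _
    linarith
  set κ : ℝ := b * ϑ / 32 with hκ
  have hκ0 : 0 < κ := by positivity
  have hκ1 : κ ≤ ϑ / 8 := by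
    have : b * ϑ ≤ 1 / 2 * ϑ := by gcongr
    rw [hκ]; linarith
  refine ⟨κ * ε / 2000, by positivity, ?_⟩
  intro v₀ m₀ z₀ z₁ Λ γ ψ hz hlen hΛ hγc hγm hψ h0 hγ hsm ε₁ hε₁
  have hzR : (z₀ : ℝ) < z₁ := by exact_mod_cast hz
  have hev := H687.Seg.specSeg κ ϑ hκ0 hκ1 hϑ1 v₀ m₀ z₀ z₁ Λ γ ψ hz hΛ hγc hγm hψ h0 hγ
  have hlim : ∀ᶠ n : ℕ in atTop, (1:ℝ) / 2 ^ n ≤ ε₁ := by
    obtain ⟨k, hk⟩ := pow_unbounded_of_one_lt (1 / ε₁) (show (1:ℝ) < 2 by norm_num)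
    filter_upwards [eventually_ge_atTop k] with n hn
    rw [div_le_iff₀ (by positivity)]
    have h1 : 1 / ε₁ ≤ 2 ^ n := hk.le.trans (pow_le_pow_right₀ (by norm_num) hn)
    rw [div_le_iff₀ hε₁] at h1
    linarith
  obtain ⟨n, ⟨J, A, H, hJ, hvol⟩, hn, hnε⟩ :=
    (hev.and ((eventually_ge_atTop m₀).and hlim)).exists
  have h2n : (0:ℝ) < 2 ^ n := by positivity
  -- the thresholds
  obtain ⟨d₀, hd₀⟩ : ∃ d₀ : ℕ, ∀ d ≥ d₀, 2 / ϑ ≤ 2 ^ d := by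
    obtain ⟨d₀, hd⟩ := pow_unbounded_of_one_lt (2 / ϑ) (show (1:ℝ) < 2 by norm_num)
    exact ⟨d₀, fun d hd' => hd.le.trans (pow_le_pow_right₀ (by norm_num) hd')⟩
  obtain ⟨mt₀, hmt₀⟩ : ∃ mt₀ : ℕ, ∀ mt ≥ mt₀, (1:ℝ) / 2 ^ mt ≤ κ / 2 ^ n := by
    obtain ⟨k, hk⟩ := pow_unbounded_of_one_lt (2 ^ n / κ) (show (1:ℝ) < 2 by norm_num)
    refine ⟨k, fun mt hmt => ?_⟩
    rw [div_le_div_iff₀ (by positivity) h2n, one_mul]
    have h1 : (2:ℝ) ^ n / κ ≤ 2 ^ mt := hk.le.trans (pow_le_pow_right₀ (by norm_num) hmt)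
    rw [div_le_iff₀ hκ0] at h1
    linarith
  refine ⟨n + d₀, fun n₃ hn₃ => ?_⟩
  obtain ⟨d, rfl⟩ := Nat.exists_eq_add_of_le ((Nat.le_add_right n d₀).trans hn₃)
  have hd : 2 / ϑ ≤ (2:ℝ) ^ d := hd₀ d (by omega)
  have h2d : (0:ℝ) < 2 ^ d := by positivity
  set e : ℤ := ⌈2 * ϑ * 2 ^ d⌉ with he
  have he1 : 2 * ϑ * 2 ^ d ≤ e := Int.le_ceil _
  have he2 : (e : ℝ) < 2 * ϑ * 2 ^ d + 1 := Int.ceil_lt_add_one _
  have he0 : 0 ≤ e := by
    have : (0:ℝ) ≤ e := le_trans (by positivity) he1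
    exact_mod_cast this
  refine ⟨gint J d e, mt₀, ?_, ?_, ?_⟩
  · intro k hk
    obtain ⟨z, hzJ, h1, h2⟩ := mem_gint.1 hk
    exact ((iv_sub_ivm he1 h1 h2).trans (ivm_sub (by linarith))).trans (hJ z hzJ)
  · have h1 := card_beams hz hn hJ
    have h2 := card_gint (J := J) (d := d) he0
    have hJ0 : (0:ℝ) ≤ J.card := Nat.cast_nonneg _
    have h3 : (J.card : ℝ) * (2 ^ d * (1 - 5 * ϑ)) ≤ (gint J d e).card := by
      refine le_trans ?_ h2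
      rw [Int.cast_natCast]
      apply mul_le_mul_of_nonneg_left _ hJ0
      rw [div_le_iff₀ hϑ0] at hd
      linarith
    have h4 : (J.card : ℝ) / 2 ^ n - 5 * ϑ ≤ ((gint J d e).card : ℝ) / 2 ^ (n + d) := by
      have e1 : (J.card : ℝ) / 2 ^ n * (1 - 5 * ϑ) =
          ((J.card : ℝ) * (2 ^ d * (1 - 5 * ϑ))) / 2 ^ (n + d) := by
        rw [pow_add]; field_simp
      have h5 : (J.card : ℝ) / 2 ^ n * (1 - 5 * ϑ) ≤ ((gint J d e).card : ℝ) / 2 ^ (n + d) := by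
        rw [e1]
        gcongr
      have h6 : (J.card : ℝ) / 2 ^ n * (5 * ϑ) ≤ 1 * (5 * ϑ) := by
        apply mul_le_mul_of_nonneg_right (h1.trans hlen) (by positivity)
      linarith
    have hint : 0 ≤ ∫ t in Icc (v₀ + (z₀ : ℝ) / 2 ^ m₀) (v₀ + z₁ / 2 ^ m₀), ψ t :=
      integral_nonneg h0
    have hl0 : 0 ≤ ((z₁ : ℝ) - z₀) / 2 ^ m₀ := div_nonneg (by linarith) (by positivity)
    have h5 := lost_le (c := 1000 / κ * (∫ t in Icc (v₀ + (z₀ : ℝ) / 2 ^ m₀)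
      (v₀ + z₁ / 2 ^ m₀), ψ t) + 2 * ϑ * ((z₁ - z₀) / 2 ^ m₀)) (by positivity) hϑ0.le hvol
    have h6 : 1000 / κ * (∫ t in Icc (v₀ + (z₀ : ℝ) / 2 ^ m₀) (v₀ + z₁ / 2 ^ m₀), ψ t) ≤
        ε / 2 := by
      calc 1000 / κ * (∫ t in Icc (v₀ + (z₀ : ℝ) / 2 ^ m₀) (v₀ + z₁ / 2 ^ m₀), ψ t)
          ≤ 1000 / κ * (κ * ε / 2000) := by gcongr
        _ = ε / 2 := by field_simp; norm_num
    have h7 : 2 * ϑ * (((z₁ : ℝ) - z₀) / 2 ^ m₀) ≤ 2 * ϑ * 1 := by gcongr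
    linarith
  · intro jt hjt
    obtain ⟨lo, hi, h1, h2, h3, h4⟩ := exists_segs H hb hb1 hκ0 le_rfl hϑ1 (hmt₀ jt hjt)
    refine ⟨{z // z ∈ J}, inferInstance, lo, hi, fun _ => 10 * κ / b / 2 ^ n, κ / 2 ^ n,
      by positivity, h1 1 (by decide), h1 2 (by decide), fun z => ?_, h2, fun z y hy => ?_,
      fun k hk => ?_⟩
    · refine le_trans ?_ hnε
      have h5 : 10 * κ / b ≤ 1 := by
        have : 10 * κ / b = 10 * ϑ / 32 := by rw [hκ]; field_simp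
        rw [this]; linarith
      show 10 * κ / b / 2 ^ n ≤ 1 / 2 ^ n
      exact div_le_div_of_nonneg_right h5 h2n.le
    · obtain ⟨s, hs, hys⟩ := h3 z y hy
      exact ⟨s, hJ z.1 z.2 hs, hys.trans hnε⟩
    · obtain ⟨z, hzJ, h6, h7⟩ := mem_gint.1 hk
      exact ⟨⟨z, hzJ⟩, fun u hu y hy j hj =>
        h4 ⟨z, hzJ⟩ u (iv_sub_ivm he1 h6 h7 hu) y hy j hj⟩

end Vale.Agent.P073.H79.SegB
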