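import Vale.Agent.P073.H83.GenB

/-!
# P073, block A04-NETIN, [EDGE-LEB]: the fine edges around almost every point

For an integrable `G` there is a sequence of generations along which, for a.e. origin `v` and a.e.
point `x`, the averages of `‖G - G x‖` over the edges of generation `n + j` in the dyadic cube of
generation `n` containing `x` tend to zero (`n` in the sequence, `j` fixed).
-/

open Set Metric Topology Filter MeasureTheory
open scoped ENNReal

namespace Vale.Agent.P073.H79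

open Vale.Agent.P073.AB (Idx pt edge eInt)
open _root_.P073.Net (dyc dyo)
open Vale.Agent.P073.St (V)
open Vale.Agent.P073.SQ (ev)
open Vale.Agent.P073.H194 (idx)

variable {E : Type*} [NormedAddCommGroup E]

/-- continuity of translations in `L¹` -/
theorem exists_shiftE {G : V → E} (hG : Integrable G) {ε : ℝ≥0∞} (hε : 0 < ε) :
    ∃ δ > 0, ∀ h : V, ‖h‖ < δ → ∫⁻ x, ‖G (x + h) - G x‖ₑ ≤ ε := by
  have : Fact ((1 : ℝ≥0∞) ≠ ∞) := ⟨ENNReal.one_ne_top⟩
  have hGp : MemLp G 1 volume := memLp_one_iff_integrable.2 hG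
  set L : Lp E 1 (volume : Measure V) := hGp.toLp G with hL
  have hcont : Continuous fun c : V => (DomAddAct.mk c +ᵥ L : Lp E 1 (volume : Measure V)) := by
    have h1 : Continuous fun c : V => DomAddAct.mk c := DomAddAct.continuous_mk
    exact h1.vadd continuous_const
  have h0 : (DomAddAct.mk (0:V) +ᵥ L : Lp E 1 (volume : Measure V)) = L := by
    have : (DomAddAct.mk (0:V)) = 0 := rfl
    rw [this, zero_vadd]
  obtain ⟨r, hr0, hr⟩ : ∃ r : ℝ, 0 < r ∧ ENNReal.ofReal r ≤ ε := by
    by_cases hε' : ε = ∞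
    · exact ⟨1, one_pos, by rw [hε']; exact le_top⟩
    · exact ⟨ε.toReal, ENNReal.toReal_pos hε.ne' hε', by rw [ENNReal.ofReal_toReal hε']⟩
  obtain ⟨δ, hδ, H⟩ := Metric.continuous_iff.1 hcont 0 r hr0
  refine ⟨δ, hδ, fun h hh => ?_⟩
  have h3 := H h (by simpa using hh)
  rw [h0, Lp.dist_def] at h3
  have h4 : (⇑(DomAddAct.mk h +ᵥ L : Lp E 1 (volume : Measure V))) =ᵐ[volume]
      fun x => G (h + x) := by
    have h5 := DomAddAct.vadd_Lp_ae_eq (DomAddAct.mk h) L
    have h6 : (⇑L) =ᵐ[volume] G := hGp.coeFn_toLp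
    refine h5.trans ?_
    exact (measurePreserving_vadd h (volume : Measure V)).quasiMeasurePreserving.ae_eq_comp h6
  have h8 : eLpNorm (⇑(DomAddAct.mk h +ᵥ L : Lp E 1 (volume : Measure V)) - ⇑L) 1 volume =
      ∫⁻ x, ‖G (h + x) - G x‖ₑ := by
    rw [eLpNorm_one_eq_lintegral_enorm]
    refine lintegral_congr_ae ?_
    filter_upwards [h4, hGp.coeFn_toLp] with x hx hx'
    rw [Pi.sub_apply, hx, hx']
  have h9 : eLpNorm (⇑(DomAddAct.mk h +ᵥ L : Lp E 1 (volume : Measure V)) - ⇑L) 1 volume ≤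
      ENNReal.ofReal r := by
    have hne : eLpNorm (⇑(DomAddAct.mk h +ᵥ L : Lp E 1 (volume : Measure V)) - ⇑L) 1 volume
        ≠ ∞ :=
      ((Lp.memLp (DomAddAct.mk h +ᵥ L : Lp E 1 (volume : Measure V))).sub
        (Lp.memLp L)).eLpNorm_ne_top
    rw [← ENNReal.ofReal_toReal hne]
    exact ENNReal.ofReal_le_ofReal h3.le
  rw [h8] at h9
  refine le_trans (le_of_eq ?_) (h9.trans hr)
  exact lintegral_congr fun x => by rw [add_comm]

theorem meas_diff {X : Type*} [MeasurableSpace X] {G : V → E} (hG : StronglyMeasurable G)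
    {φ ψ : X → V} (hφ : Measurable φ) (hψ : Measurable ψ) :
    Measurable fun q => ‖G (φ q) - G (ψ q)‖ₑ := by
  have h1 : StronglyMeasurable fun q => G (φ q) := hG.comp_measurable hφ
  have h2 : StronglyMeasurable fun q => G (ψ q) := hG.comp_measurable hψ
  have h3 : StronglyMeasurable fun q => G (φ q) - G (ψ q) := h1.sub h2
  exact h3.enorm

/-- the point with parameter `t` of the edge number `(a, k)` of generation `n + j`, relative to the
origin; the cube of generation `n` contains `y` -/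
noncomputable def Pt (a : Fin 3 → ℤ) (k : Fin 3) (j n : ℕ) (y : V) (t : ℝ) : V := fun i =>
  (⌊2 ^ n * y i⌋ : ℝ) / 2 ^ n + (a i : ℝ) / 2 ^ (n + j) + (if i = k then t / 2 ^ (n + j) else 0)

theorem measurable_Pt (a : Fin 3 → ℤ) (k : Fin 3) (j n : ℕ) :
    Measurable fun p : V × ℝ => Pt a k j n p.1 p.2 := by
  refine measurable_pi_lambda _ fun i => ?_
  unfold Pt
  by_cases h : i = k
  · simp only [h, if_true]
    have : Measurable fun p : V × ℝ => (⌊2 ^ n * p.1 k⌋ : ℝ) := by fun_prop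
    fun_prop
  · simp only [h, if_false]
    have : Measurable fun p : V × ℝ => (⌊2 ^ n * p.1 i⌋ : ℝ) := by fun_prop
    fun_prop

theorem norm_Pt_sub_le (a : Fin 3 → ℤ) (k : Fin 3) (j n : ℕ) (y : V) {t : ℝ}
    (ht : t ∈ Icc (0:ℝ) 1) :
    ‖Pt a k j n y t - y‖ ≤ (2 + ∑ i, |(a i : ℝ)|) / 2 ^ n := by
  have hp : (0:ℝ) < 2 ^ n := by positivity
  have hp' : (0:ℝ) < 2 ^ (n + j) := by positivity
  have hle : (1:ℝ) / 2 ^ (n + j) ≤ 1 / 2 ^ n :=
    one_div_le_one_div_of_le hp (pow_le_pow_right₀ (by norm_num) (Nat.le_add_right _ _))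
  rw [pi_norm_le_iff_of_nonneg (by
    have : 0 ≤ ∑ i, |(a i : ℝ)| := Finset.sum_nonneg fun i _ => abs_nonneg _
    positivity)]
  intro i
  rw [Pi.sub_apply, Real.norm_eq_abs]
  have h1 := Int.floor_le (2 ^ n * y i)
  have h2 := Int.lt_floor_add_one (2 ^ n * y i)
  have e1 : |(⌊2 ^ n * y i⌋ : ℝ) / 2 ^ n - y i| ≤ 1 / 2 ^ n := by
    have : (⌊2 ^ n * y i⌋ : ℝ) / 2 ^ n - y i = (⌊2 ^ n * y i⌋ - 2 ^ n * y i) / 2 ^ n := by
      field_simp
    rw [this, abs_div, abs_of_pos hp]
    gcongr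
    rw [abs_le]
    constructor <;> linarith
  have e2 : |(a i : ℝ) / 2 ^ (n + j)| ≤ (∑ i, |(a i : ℝ)|) / 2 ^ n := by
    rw [abs_div, abs_of_pos hp', div_eq_mul_one_div, div_eq_mul_one_div (∑ i, |(a i : ℝ)|)]
    have h3 : |(a i : ℝ)| ≤ ∑ i, |(a i : ℝ)| :=
      Finset.single_le_sum (f := fun i => |(a i : ℝ)|) (fun i _ => abs_nonneg _)
        (Finset.mem_univ i)
    exact mul_le_mul h3 hle (by positivity) ((abs_nonneg _).trans h3)
  have e3 : |(if i = k then t / 2 ^ (n + j) else 0 : ℝ)| ≤ 1 / 2 ^ n := by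
    split_ifs
    · rw [abs_div, abs_of_pos hp', abs_of_nonneg ht.1]
      exact (div_le_div_of_nonneg_right ht.2 hp'.le).trans hle
    · rw [abs_zero]; positivity
  have e4 : Pt a k j n y t i - y i = ((⌊2 ^ n * y i⌋ : ℝ) / 2 ^ n - y i) +
      (a i : ℝ) / 2 ^ (n + j) + (if i = k then t / 2 ^ (n + j) else 0 : ℝ) := by
    simp only [Pt]; ring
  rw [e4]
  refine (abs_add_le _ _).trans ?_
  refine (add_le_add_left (abs_add_le _ _) _).trans ?_
  have e5 : (2 + ∑ i, |(a i : ℝ)|) / 2 ^ n = 1 / 2 ^ n + (∑ i, |(a i : ℝ)|) / 2 ^ n + 1 / 2 ^ n := by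
    ring
  rw [e5]
  linarith

/-- average over the edge number `(a, k)` of generation `n + j` in the cube of generation `n` which
contains `x` -/
noncomputable def Kn (G : V → E) (a : Fin 3 → ℤ) (k : Fin 3) (j n : ℕ) (p : V × V) : ℝ≥0∞ :=
  ∫⁻ t in Icc (0:ℝ) 1, ‖G (p.1 + Pt a k j n (p.2 - p.1) t) - G p.2‖ₑ

theorem measurable_Kn {G : V → E} (hG : StronglyMeasurable G) (a : Fin 3 → ℤ) (k : Fin 3)
    (j n : ℕ) : Measurable (Kn G a k j n) := by
  have hP := measurable_Pt a k j n
  unfold Kn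
  generalize Pt a k j n = P at hP ⊢
  have h1 : Measurable fun q : (V × V) × ℝ => q.1.1 + P (q.1.2 - q.1.1) q.2 :=
    (measurable_fst.comp measurable_fst).add (hP.comp
      (((measurable_snd.comp measurable_fst).sub (measurable_fst.comp measurable_fst)).prodMk
        measurable_snd))
  have h2 : Measurable fun q : (V × V) × ℝ => q.1.2 := measurable_snd.comp measurable_fst
  have h3 : Measurable fun q : (V × V) × ℝ =>
      ‖G (q.1.1 + P (q.1.2 - q.1.1) q.2) - G q.1.2‖ₑ := meas_diff hG h1 h2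
  exact h3.lintegral_prod_right'

/-- the main estimate for an abstract position function `P` -/
theorem lintegral_aux {G : V → E} (hG : StronglyMeasurable G) {P : V → ℝ → V}
    (hP : Measurable fun p : V × ℝ => P p.1 p.2) {η : ℝ≥0∞} {δ : ℝ}
    (hs : ∀ h : V, ‖h‖ < δ → ∫⁻ x, ‖G (x + h) - G x‖ₑ ≤ η)
    (hPy : ∀ y, ∀ t ∈ Icc (0:ℝ) 1, ‖P y t - y‖ < δ) (R : ℕ) :
    ∫⁻ v in Icc (0:V) 1, ∫⁻ x, (closedBall (0:V) (R:ℝ)).indicator
      (fun x => ∫⁻ t in Icc (0:ℝ) 1, ‖G (v + P (x - v) t) - G x‖ₑ) x ≤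
      η * volume (closedBall (0:V) (R + 1 : ℝ)) := by
  set B : Set V := closedBall (0:V) (R + 1 : ℝ) with hB
  have hBm : MeasurableSet B := measurableSet_closedBall
  set f : V → V → ℝ≥0∞ := fun v y =>
    ∫⁻ t in Icc (0:ℝ) 1, ‖G (v + P y t) - G (v + y)‖ₑ with hf
  have hfm : Measurable fun p : V × V => f p.1 p.2 := by
    have h1 : Measurable fun q : (V × V) × ℝ => q.1.1 + P q.1.2 q.2 :=
      (measurable_fst.comp measurable_fst).add (hP.comp
        ((measurable_snd.comp measurable_fst).prodMk measurable_snd))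
    have h2 : Measurable fun q : (V × V) × ℝ => q.1.1 + q.1.2 := by fun_prop
    have h3 : Measurable fun q : (V × V) × ℝ =>
        ‖G (q.1.1 + P q.1.2 q.2) - G (q.1.1 + q.1.2)‖ₑ := meas_diff hG h1 h2
    exact h3.lintegral_prod_right'
  calc ∫⁻ v in Icc (0:V) 1, ∫⁻ x, (closedBall (0:V) (R:ℝ)).indicator
          (fun x => ∫⁻ t in Icc (0:ℝ) 1, ‖G (v + P (x - v) t) - G x‖ₑ) x
      ≤ ∫⁻ v in Icc (0:V) 1, ∫⁻ y in B, f v y := by
        refine setLIntegral_mono' measurableSet_Icc fun v hv => ?_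
        rw [← lintegral_add_left_eq_self _ v, ← lintegral_indicator hBm]
        refine lintegral_mono fun y => ?_
        by_cases h : v + y ∈ closedBall (0:V) (R:ℝ)
        · have h1 : y ∈ B := by
            rw [hB, mem_closedBall, dist_zero_right]
            rw [mem_closedBall, dist_zero_right] at h
            have h2 : ‖v‖ ≤ 1 := by
              rw [pi_norm_le_iff_of_nonneg zero_le_one]
              intro i
              rw [Real.norm_eq_abs, abs_of_nonneg (hv.1 i)]
              exact hv.2 i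
            calc ‖y‖ = ‖(v + y) - v‖ := by rw [add_sub_cancel_left]
              _ ≤ ‖v + y‖ + ‖v‖ := norm_sub_le _ _
              _ ≤ R + 1 := add_le_add h h2
          rw [indicator_of_mem h, indicator_of_mem h1]
          simp only [hf, add_sub_cancel_left]
          exact le_refl _
        · rw [indicator_of_notMem h]
          exact zero_le
    _ ≤ ∫⁻ v : V, ∫⁻ y in B, f v y := setLIntegral_le_lintegral _ _
    _ = ∫⁻ y in B, ∫⁻ v, f v y := lintegral_lintegral_swap hfm.aemeasurable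
    _ ≤ ∫⁻ _y in B, η := by
        refine lintegral_mono fun y => ?_
        have h1 : Measurable fun q : V × ℝ => q.1 + P y q.2 :=
          measurable_fst.add (hP.comp (measurable_const.prodMk measurable_snd))
        have h2 : Measurable fun q : V × ℝ => q.1 + y := by fun_prop
        have h3 : Measurable fun q : V × ℝ => ‖G (q.1 + P y q.2) - G (q.1 + y)‖ₑ :=
          meas_diff hG h1 h2
        simp only [hf]
        rw [lintegral_lintegral_swap h3.aemeasurable]
        calc ∫⁻ t in Icc (0:ℝ) 1, ∫⁻ v, ‖G (v + P y t) - G (v + y)‖ₑ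
            ≤ ∫⁻ _t in Icc (0:ℝ) 1, η := by
              refine setLIntegral_mono' measurableSet_Icc fun t ht => ?_
              have h5 := lintegral_add_right_eq_self (μ := (volume : Measure V))
                (fun v => ‖G (v + (P y t - y)) - G v‖ₑ) y
              have h6 : ∀ v, v + y + (P y t - y) = v + P y t := fun v => by abel
              simp only [h6] at h5
              rw [h5]
              exact hs _ (hPy y t ht)
          _ = η := by
              rw [setLIntegral_const, Real.volume_Icc]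
              simp
    _ = η * volume B := by rw [setLIntegral_const]

theorem tendsto_Kn {G : V → E} (hG : StronglyMeasurable G) (hGi : Integrable G)
    (a : Fin 3 → ℤ) (k : Fin 3) (j : ℕ) (R : ℕ) :
    Tendsto (fun n => ∫⁻ p, ((Prod.snd : V × V → V) ⁻¹' closedBall (0:V) (R:ℝ)).indicator
      (Kn G a k j n) p ∂((volume.restrict (Icc (0:V) 1)).prod (volume : Measure V)))
      atTop (𝓝 0) := by
  set c : ℝ≥0∞ := volume (closedBall (0:V) (R + 1 : ℝ)) with hc
  have hct : c ≠ ⊤ := by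
    rw [hc]
    exact (isCompact_closedBall (0:V) (R + 1 : ℝ)).measure_ne_top
  rw [ENNReal.tendsto_nhds_zero]
  intro ε hε
  obtain ⟨η, hη0, hη⟩ : ∃ η : ℝ≥0∞, 0 < η ∧ η * c ≤ ε := by
    by_cases h : c = 0
    · exact ⟨1, one_pos, by rw [h, mul_zero]; exact zero_le⟩
    · refine ⟨ε / c, ENNReal.div_pos hε.ne' hct, ?_⟩
      rw [ENNReal.div_mul_cancel h hct]
  obtain ⟨δ, hδ, hs⟩ := exists_shiftE hGi hη0
  have hlim : Tendsto (fun n : ℕ => (2 + ∑ i, |(a i : ℝ)|) / 2 ^ n) atTop (𝓝 0) := by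
    have h4 : Tendsto (fun n : ℕ => (1 / 2 ^ n : ℝ)) atTop (𝓝 0) := by
      have := tendsto_pow_atTop_nhds_zero_of_lt_one (r := (1 / 2 : ℝ)) (by norm_num) (by norm_num)
      simpa [one_div_pow] using this
    have := h4.const_mul (2 + ∑ i, |(a i : ℝ)|)
    rw [mul_zero] at this
    refine this.congr fun n => by ring
  filter_upwards [hlim.eventually_lt_const hδ] with n hn
  have hm : Measurable (((Prod.snd : V × V → V) ⁻¹' closedBall (0:V) (R:ℝ)).indicator
      (Kn G a k j n)) :=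
    (measurable_Kn hG a k j n).indicator (measurableSet_closedBall.preimage measurable_snd)
  rw [lintegral_prod _ hm.aemeasurable]
  refine le_trans ?_ hη
  exact lintegral_aux hG (measurable_Pt a k j n) hs
    (fun y t ht => (norm_Pt_sub_le a k j n y ht).trans_lt hn) R

end Vale.Agent.P073.H79
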