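import Vale.Agent.P073.H79.EdgeLeb
import Vale.Agent.P073.PK.Sob560a

/-!
# P073, block A04-NETIN, [EDGE-LEB], part 2: the theorem
-/

open Set Metric Topology Filter MeasureTheory
open scoped ENNReal

namespace Vale.Agent.P073.H79

open Vale.Agent.P073.AB (Idx pt edge eInt cl)
open _root_.P073.Net (dyc dyo)
open Vale.Agent.P073.St (V Mat IsBoundedDomain IsSobolev)
open Vale.Agent.P073.SQ (ev)
open Vale.Agent.P073.H194 (idx)

variable {E : Type*} [NormedAddCommGroup E]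

/-- **(EDGE-LEB)** at the point `x`, for the origin `v`, along the generations `nn`. -/
def EdgeLeb (v : V) (nn : ℕ → ℕ) (G : V → E) (x : V) : Prop :=
  ∀ (j : ℕ) (δ : ℝ≥0∞), δ ≠ 0 → ∀ᶠ l in atTop, ∀ e : Idx × Fin 3, e.1.1 = nn l + j →
    edge v e ⊆ dyc v (nn l) (idx v (nn l) x) →
    eInt v e (fun y => ‖G y - G x‖ₑ) ≤ δ * ENNReal.ofReal (1 / 2 ^ nn l)

theorem EdgeLeb.comp {v : V} {nn : ℕ → ℕ} {G : V → E} {x : V} (h : EdgeLeb v nn G x)
    {φ : ℕ → ℕ} (hφ : StrictMono φ) : EdgeLeb v (fun l => nn (φ l)) G x := fun j δ hδ =>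
  hφ.tendsto_atTop.eventually (h j δ hδ)

/-- the numbers of the edges in a cube -/
noncomputable def box (j : ℕ) : Finset (Fin 3 → ℤ) := Fintype.piFinset fun _ => Finset.Icc 0 (2 ^ j)

theorem pt_mem_edge (v : V) (e : Idx × Fin 3) : pt v e.1.1 e.1.2 ∈ edge v e :=
  left_mem_segment ℝ _ _

theorem sub_mem_box {v : V} {n j : ℕ} {z : Fin 3 → ℤ} {e : Idx × Fin 3} (he : e.1.1 = n + j)
    (hsub : edge v e ⊆ dyc v n z) : (fun i => e.1.2 i - 2 ^ j * z i) ∈ box j := by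
  rw [box, Fintype.mem_piFinset]
  intro i
  rw [Finset.mem_Icc]
  have h1 : v i + (z i : ℝ) / 2 ^ n ≤ v i + (e.1.2 i : ℝ) / 2 ^ e.1.1 ∧
      v i + (e.1.2 i : ℝ) / 2 ^ e.1.1 ≤ v i + ((z i : ℝ) + 1) / 2 ^ n :=
    hsub (pt_mem_edge v e) i
  rw [he, pow_add] at h1
  have hn : (0:ℝ) < 2 ^ n := by positivity
  have hj : (0:ℝ) < 2 ^ j := by positivity
  have h2 : (z i : ℝ) * 2 ^ j ≤ e.1.2 i := by
    have h := (add_le_add_iff_left (v i)).1 h1.1
    rw [div_le_div_iff₀ hn (by positivity)] at h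
    nlinarith
  have h3 : (e.1.2 i : ℝ) ≤ (z i + 1) * 2 ^ j := by
    have h := (add_le_add_iff_left (v i)).1 h1.2
    rw [div_le_div_iff₀ (by positivity) hn] at h
    nlinarith
  have h2' : z i * 2 ^ j ≤ e.1.2 i := by exact_mod_cast h2
  have h3' : e.1.2 i ≤ (z i + 1) * 2 ^ j := by exact_mod_cast h3
  constructor
  · linarith
  · linarith

theorem eInt_eq_Kn {G : V → E} {v x : V} {n j : ℕ} {e : Idx × Fin 3} (he : e.1.1 = n + j) :
    eInt v e (fun y => ‖G y - G x‖ₑ) = ENNReal.ofReal (1 / 2 ^ (n + j)) *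
      Kn G (fun i => e.1.2 i - 2 ^ j * idx v n x i) e.2 j n (v, x) := by
  unfold eInt Kn
  rw [he]
  congr 1
  refine lintegral_congr fun t => ?_
  have h1 : pt v (n + j) e.1.2 + t • ((1 / 2 ^ (n + j) : ℝ) • (ev e.2 : V)) =
      v + Pt (fun i => e.1.2 i - 2 ^ j * idx v n x i) e.2 j n (x - v) t := by
    funext i
    simp only [Pi.add_apply, Pi.smul_apply, smul_eq_mul, pt, Pt, Pi.sub_apply, idx]
    have hn : (0:ℝ) < 2 ^ n := by positivity
    have hj : (0:ℝ) < 2 ^ j := by positivity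
    have h2 : (ev e.2 : V) i = if i = e.2 then 1 else 0 := by
      by_cases h : i = e.2
      · subst h; simp [ev]
      · simp [ev, h]
    rw [h2, pow_add]
    push_cast
    split_ifs
    · field_simp; ring
    · field_simp; ring
  rw [h1]

/-- a null set does not meet almost every edge of almost every dyadic net -/
theorem ae_edge_null {N : Set V} (hN : MeasurableSet N) (hN0 : volume N = 0) :
    ∀ᵐ v : V, ∀ e : Idx × Fin 3, ∀ᵐ t ∂(volume.restrict (Icc (0:ℝ) 1)),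
      pt v e.1.1 e.1.2 + t • ((1 / 2 ^ e.1.1 : ℝ) • (ev e.2 : V)) ∉ N := by
  rw [ae_all_iff]
  intro e
  set c : ℝ → V := fun t => (fun i => (e.1.2 i : ℝ) / 2 ^ e.1.1) +
    t • ((1 / 2 ^ e.1.1 : ℝ) • (ev e.2 : V)) with hc
  have hcm : Measurable c := by
    rw [hc]; fun_prop
  have h1 : ∀ (v : V) (t : ℝ), pt v e.1.1 e.1.2 + t • ((1 / 2 ^ e.1.1 : ℝ) • (ev e.2 : V)) =
      v + c t := by
    intro v t
    funext i
    simp only [hc, pt, Pi.add_apply, Pi.smul_apply, smul_eq_mul]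
    ring
  simp only [h1]
  have hm : MeasurableSet {p : V × ℝ | p.1 + c p.2 ∉ N} :=
    ((measurable_fst.add (hcm.comp measurable_snd)) hN).compl
  rw [Measure.ae_ae_comm hm]
  refine ae_of_all _ fun t => ?_
  have h2 : volume ((fun v : V => v + c t) ⁻¹' N) = 0 := by
    rw [measure_preimage_add_right]
    exact hN0
  exact measure_eq_zero_iff_ae_notMem.1 h2

/-- **(EDGE-LEB)** -/
theorem exists_edge_leb {G : V → E} (hG : Integrable G) {M₀ : ℕ → ℕ} (hM₀ : StrictMono M₀) :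
    ∃ φ : ℕ → ℕ, StrictMono φ ∧ ∀ᵐ v ∂(volume.restrict (Icc (0:V) 1)), ∀ᵐ x : V,
      EdgeLeb v (fun l => M₀ (φ l)) G x := by
  -- a measurable representative
  set G₁ : V → E := hG.1.mk G with hG₁
  have hG₁m : StronglyMeasurable G₁ := hG.1.stronglyMeasurable_mk
  have hGG : G =ᵐ[volume] G₁ := hG.1.ae_eq_mk
  have hG₁i : Integrable G₁ := hG.congr hGG
  obtain ⟨N, hNs, hNm, hN0⟩ := exists_measurable_superset_of_null (ae_iff.1 hGG)
  set μ : Measure (V × V) := (volume.restrict (Icc (0:V) 1)).prod volume with hμ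
  set X : (ℕ × (Fin 3 → ℤ) × Fin 3 × ℕ) → ℕ → V × V → ℝ≥0∞ := fun τ n p =>
    ((Prod.snd : V × V → V) ⁻¹' closedBall (0:V) (τ.1:ℝ)).indicator
      (Kn G₁ τ.2.1 τ.2.2.1 τ.2.2.2 n) p with hX
  obtain ⟨φ, hφ, hmain⟩ := H83.exists_generations' (μ := μ) X
    (fun τ n => ((measurable_Kn hG₁m _ _ _ _).indicator
      (measurableSet_closedBall.preimage measurable_snd)).aemeasurable)
    (fun τ => tendsto_Kn hG₁m hG₁i τ.2.1 τ.2.2.1 τ.2.2.2 τ.1) hM₀
  refine ⟨φ, hφ, ?_⟩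
  have h1 := Measure.ae_ae_of_ae_prod hmain
  have h2 : ∀ᵐ v ∂(volume.restrict (Icc (0:V) 1)), ∀ e : Idx × Fin 3,
      ∀ᵐ t ∂(volume.restrict (Icc (0:ℝ) 1)),
      pt v e.1.1 e.1.2 + t • ((1 / 2 ^ e.1.1 : ℝ) • (ev e.2 : V)) ∉ N :=
    ae_restrict_of_ae (ae_edge_null hNm hN0)
  filter_upwards [h1, h2] with v hv hvN
  filter_upwards [hv, hGG] with x hx hxG
  intro j δ hδ
  obtain ⟨R, hR⟩ := exists_nat_ge ‖x‖
  have hxR : x ∈ closedBall (0:V) (R:ℝ) := by rwa [mem_closedBall, dist_zero_right]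
  have h3 : ∀ᶠ l in atTop, ∀ a ∈ box j, ∀ k : Fin 3, Kn G₁ a k j (M₀ (φ l)) (v, x) ≤ δ := by
    rw [Filter.eventually_all_finset]
    intro a _
    rw [Filter.eventually_all]
    intro k
    have h4 := hx (R, a, k, j)
    simp only [hX] at h4
    have h5 : ∀ n, ((Prod.snd : V × V → V) ⁻¹' closedBall (0:V) ((R, a, k, j).1:ℝ)).indicator
        (Kn G₁ a k j n) (v, x) = Kn G₁ a k j n (v, x) := fun n =>
      indicator_of_mem (show (v, x) ∈ (Prod.snd : V × V → V) ⁻¹' closedBall (0:V) (R:ℝ) from hxR) _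
    simp only [h5] at h4
    exact h4.eventually (ge_mem_nhds (pos_iff_ne_zero.2 hδ))
  filter_upwards [h3] with l hl e he hsub
  have h6 : eInt v e (fun y => ‖G y - G x‖ₑ) = eInt v e (fun y => ‖G₁ y - G₁ x‖ₑ) := by
    unfold eInt
    congr 1
    refine lintegral_congr_ae ?_
    filter_upwards [hvN e] with t ht
    have h7 : ∀ y, y ∉ N → G y = G₁ y := by
      intro y hy
      by_contra h
      exact hy (hNs h)
    rw [h7 _ ht, hxG]
  rw [h6, eInt_eq_Kn he]
  have h8 := hl _ (sub_mem_box he hsub) e.2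
  calc ENNReal.ofReal (1 / 2 ^ (M₀ (φ l) + j)) * Kn G₁ _ e.2 j (M₀ (φ l)) (v, x)
      ≤ ENNReal.ofReal (1 / 2 ^ M₀ (φ l)) * δ := by
        refine mul_le_mul' (ENNReal.ofReal_le_ofReal ?_) h8
        exact one_div_le_one_div_of_le (by positivity)
          (pow_le_pow_right₀ (by norm_num) (Nat.le_add_right _ _))
    _ = δ * ENNReal.ofReal (1 / 2 ^ M₀ (φ l)) := mul_comm _ _

/-- the cubes containing a point of an open set are in the open set, for large generations -/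
theorem eventually_dyc_subset {Ω : Set V} (hΩ : IsOpen Ω) {x : V} (hx : x ∈ Ω) (v : V)
    {nn : ℕ → ℕ} (hnn : StrictMono nn) :
    ∀ᶠ l in atTop, dyc v (nn l) (idx v (nn l) x) ⊆ Ω := by
  obtain ⟨r, hr, hball⟩ := Metric.isOpen_iff.1 hΩ x hx
  have h4 : Tendsto (fun n : ℕ => (1 / 2 ^ n : ℝ)) atTop (𝓝 0) := by
    have := tendsto_pow_atTop_nhds_zero_of_lt_one (r := (1 / 2 : ℝ)) (by norm_num) (by norm_num)
    simpa [one_div_pow] using this
  filter_upwards [(h4.comp hnn.tendsto_atTop).eventually_lt_const hr] with l hl y hy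
  apply hball
  rw [mem_ball, dist_pi_lt_iff hr]
  intro i
  have hp : (0:ℝ) < 2 ^ nn l := by positivity
  have h1 := Int.floor_le (2 ^ nn l * (x i - v i))
  have h2 := Int.lt_floor_add_one (2 ^ nn l * (x i - v i))
  obtain ⟨h3, h5⟩ := hy i
  have e1 : (idx v (nn l) x i : ℝ) / 2 ^ nn l ≤ x i - v i := by
    rw [div_le_iff₀ hp, mul_comm]
    exact h1
  have e2 : x i - v i < ((idx v (nn l) x i : ℝ) + 1) / 2 ^ nn l := by
    rw [lt_div_iff₀ hp, mul_comm]
    exact h2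
  have e3 : ((idx v (nn l) x i : ℝ) + 1) / 2 ^ nn l =
    (idx v (nn l) x i : ℝ) / 2 ^ nn l + 1 / 2 ^ nn l := by ring
  simp only [Function.comp] at hl
  rw [Real.dist_eq, abs_lt]
  constructor <;> linarith

/-- **(EDGE-LEB)** for a Sobolev function: for a.e. origin and a.e. point of `Ω`, the edges of
generation `nn l + j` in the cube of generation `nn l` containing `x`. -/
theorem exists_edge_leb_sobolev {p : ℝ} {Ω : Set V} {f : V → V} {F : V → Mat} (hp : 1 ≤ p)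
    (hΩ : IsBoundedDomain Ω) (hF : IsSobolev p Ω f F) {M₀ : ℕ → ℕ} (hM₀ : StrictMono M₀) :
    ∃ φ : ℕ → ℕ, StrictMono φ ∧ ∀ᵐ v ∂(volume.restrict (Icc (0:V) 1)), ∀ᵐ x : V,
      EdgeLeb v (fun l => M₀ (φ l)) (Ω.indicator fun x => cl (F x)) x := by
  refine exists_edge_leb ?_ hM₀
  have h1 : IsFiniteMeasure ((volume : Measure V).restrict Ω) :=
    ⟨by rw [Measure.restrict_apply_univ]
        exact (PK.volume_ne_top_of_domain hΩ).lt_top⟩
  have h2 : IntegrableOn (fun x => cl (F x)) Ω :=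
    (PK.IsSob.memLp_cl hF).integrable (by
      rw [← ENNReal.ofReal_one]
      exact ENNReal.ofReal_le_ofReal hp)
  exact (integrable_indicator_iff hΩ.1.measurableSet).2 h2

/-- the form used for good cells -/
theorem EdgeLeb.own {Ω : Set V} {F : V → Mat} {v x : V} {nn : ℕ → ℕ}
    (h : EdgeLeb v nn (Ω.indicator fun x => cl (F x)) x) (hΩ : IsOpen Ω) (hx : x ∈ Ω)
    (hnn : StrictMono nn) (j : ℕ) {κ : ℝ} (hκ : 0 < κ) :
    ∀ᶠ l in atTop, dyc v (nn l) (idx v (nn l) x) ⊆ Ω ∧ ∀ e : Idx × Fin 3, e.1.1 = nn l + j →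
      edge v e ⊆ dyc v (nn l) (idx v (nn l) x) →
      eInt v e (fun y => ENNReal.ofReal ‖cl (F y) (ev e.2) - cl (F x) (ev e.2)‖) ≤
        ENNReal.ofReal (κ / 2 ^ (nn l + j)) := by
  have hj : (0:ℝ) < 2 ^ j := by positivity
  filter_upwards [h j (ENNReal.ofReal (κ / 2 ^ j)) (by
    rw [Ne, ENNReal.ofReal_eq_zero, not_le]
    positivity), eventually_dyc_subset hΩ hx v hnn] with l hl hsub
  refine ⟨hsub, fun e he hes => ?_⟩
  refine le_trans ?_ ((hl e he hes).trans (le_of_eq ?_))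
  · unfold eInt
    refine mul_le_mul' le_rfl (lintegral_mono_ae ?_)
    filter_upwards [ae_restrict_mem measurableSet_Icc] with t ht
    have h1 : pt v e.1.1 e.1.2 + t • ((1 / 2 ^ e.1.1 : ℝ) • (ev e.2 : V)) ∈ edge v e := by
      rw [edge, segment_eq_image']
      exact ⟨t, ht, by simp⟩
    have h2 := hsub (hes h1)
    rw [indicator_of_mem h2, indicator_of_mem hx, ← ofReal_norm,
      ← sub_apply]
    apply ENNReal.ofReal_le_ofReal
    refine (ContinuousLinearMap.le_opNorm _ _).trans ?_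
    have h3 : ‖(ev e.2 : V)‖ = 1 := by
      unfold ev
      rw [Pi.norm_single, norm_one]
    rw [h3, mul_one]
  · rw [← ENNReal.ofReal_mul (by positivity)]
    congr 1
    rw [pow_add]
    field_simp

end Vale.Agent.P073.H79
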