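import Vale.Agent.P073.H936.RTHook
import Vale.Agent.P073.H237.NearDef

/-!
# P073, block FIB2 (d): bands of one family survive the switch where the other family is away

`T` is a set of the target which is away from the bands of the other side (`BoxK.Near`). (R1) is a
hypothesis.

* `not_mem_N` (R0): points near `T` are on no new sheet of the other side;
* `not_mem_B` (R2), `mem_root` (R3'): consequences for the output of the full switch;
* `exists_co_vf`: a passive point of a new sheet is on a common fibre;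
* `keep`: invariance of passive sets in the bands of the new map.
-/

open Set Metric Topology Filter

namespace P073.H79.Fib

open P073 P073.H936 P073.H936.K3 P073.H880 P073.H669 P073.H579

variable {ι : Type*} {E : Type} [NormedAddCommGroup E] [NormedSpace ℝ E]
  {side : ι → Bool} {ax : Bool → Fin 3} {lo hi : Fin 3 → ℝ} {c w : ι → ℝ} {U : Set E} {Q : Type}
  (D : BoxK side ax lo hi c w U Q)

variable {D}

theorem mem_T {T : Set (Fin 3 → ℝ)} {x : E} (h : D.Nr T x) : D.h.toFun x ∈ T := by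
  rcases h.2 with h | ⟨q, hq, h⟩
  · exact h.1
  · exact h (mem_image_of_mem _ hq)

variable [Finite ι]

/-- a passive point of a new sheet is on a common fibre of the old and of the new sheet -/
theorem exists_co_vf {i : ι} {x : E} (hx : x ∈ D.vf.N i) (hV : ∀ q, x ∉ interior (D.K.C q)) :
    ∃ z ∈ D.pre.co i, ∃ t ∈ Icc (-1:ℝ) 1, (D.pre.Γ i).toFun (z, t) = x ∧
      (D.pre.Γ' i).toFun (z, t) = x := by
  have h1 := (D.pre.Γ' i).mapsTo_inv hx
  have h2 := (D.pre.Γ' i).right_inv hx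
  obtain ⟨⟨z, t⟩, hzt⟩ : ∃ p, p = (D.pre.Γ' i).invFun x := ⟨_, rfl⟩
  have h1 : (D.pre.Γ' i).invFun x ∈ D.pre.D' i ×ˢ Icc (-1:ℝ) 1 := h1
  have h2 : (D.pre.Γ' i).toFun ((D.pre.Γ' i).invFun x) = x := h2
  rw [← hzt] at h1 h2
  obtain ⟨hz, ht⟩ := h1
  have hz : z ∈ D.pre.D' i := hz
  have ht : t ∈ Icc (-1:ℝ) 1 := ht
  have hco : z ∈ D.pre.co i := by
    rcases hz with hz | hz
    · exact hz
    · obtain ⟨k, hz⟩ := mem_iUnion.1 hz
      have e := D.pre.Γ'_cap i k hz ht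
      have hΔ : (D.pre.G i k).toFun (z, t) ∈ D.pre.Δ i k := (D.pre.G i k).mapsTo ⟨hz, ht⟩
      rcases D.pre.cap_sub i k hΔ with h4 | h4
      · exact absurd h4 (by rw [← e, h2]; exact hV (D.pre.cell i k))
      · exact D.pre.γ_co i k.2 (D.pre.mem_γ_of i k hz ht h4)
  exact ⟨z, hco, t, ht, by rw [← D.pre.Γ'_co i hco ht]; exact h2, h2⟩

/-- the old fibre -/
theorem gam_old {i : ι} {z : E} (hz : z ∈ D.pre.D i) {t : ℝ} (ht : t ∈ Icc (-1:ℝ) 1) :
    D.h.toFun ((D.pre.Γ i).toFun (z, t)) =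
      slide (ax (side i)) (c i) (w i) (D.h.toFun z, t) := by
  have hzU : z ∈ U := D.pre_N_sub i (by
    have h1 := (D.pre.Γ i).mapsTo (show (z, (0:ℝ)) ∈ D.pre.D i ×ˢ Icc (-1:ℝ) 1 from
      ⟨hz, H142.Pre.zero_mem_I⟩)
    rwa [D.pre.zero i z hz] at h1)
  have h5 : (D.pre.Γ i).toFun (z, t) = D.h.invFun (slide (ax (side i)) (c i) (w i)
    (D.h.toFun z, t)) := dsys_fib D.H D.h i hz t
  rw [h5, D.h.right_inv (H880.slide_mem (D.H.ok i) (D.h.mapsTo hzU) (abs_le.2 ht))]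

/-- the old middle sheet is on the level `c i` -/
theorem h_mid {i : ι} {z : E} (hz : z ∈ D.pre.D i) : D.h.toFun z (ax (side i)) = c i := by
  have h := gam_old hz H142.Pre.zero_mem_I
  rw [D.pre.zero i z hz] at h
  rw [h, slide_self, zero_mul, add_zero]

/-- **(R0)** -/
theorem not_mem_N {X : Bool} {T : Set (Fin 3 → ℝ)} (hN : D.Near X T) {x : E} (hx : D.Nr T x)
    {j : ι} (hj : side j ≠ X) : x ∉ D.vf.N j := by
  have hw := (D.H.ok j).pos
  have hT : ∀ y ∈ D.pre.N j, D.h.toFun y ∉ T := by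
    intro y hy hT
    exact absurd ((D.pre_N j (D.pre_N_sub j hy)).1 hy) (not_le.2 (hN.far j hj _ hT))
  intro hxN
  rcases hxN with h1 | h1
  · exact hT x (D.pre.PP_N j h1) (mem_T hx)
  · obtain ⟨k, hk⟩ := mem_iUnion.1 h1
    rcases D.pre.cap_sub j k hk with h2 | h2
    · have h3 : x ∈ interior (D.K.C (D.pre.cell j k)) := h2
      rcases hx.2 with ⟨-, h4⟩ | ⟨q, hq, h4⟩
      · exact h4 _ h3
      · have hqq : q = D.pre.cell j k := by
          by_contra hne
          have h5 : x ∈ closure (interior (D.K.C q)) := by rw [D.K.reg q]; exact hq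
          obtain ⟨y, hy1, hy2⟩ := mem_closure_iff.1 h5 _ isOpen_interior h3
          exact disjoint_left.1 (D.K.disj q _ hne) hy2 hy1
        obtain ⟨y, hy, -⟩ := D.pre.near j k
        have hyC : y ∈ D.K.C q := by
          have h6 : D.pre.V (D.pre.cell j k) ∪ D.pre.B (D.pre.cell j k) =
            D.K.C (D.pre.cell j k) := D.bi.VB_eq _
          rw [hqq, ← h6]
          exact Or.inr (D.pre.γB j k hy)
        have h6 : D.h.toFun y ∈ T := h4 (mem_image_of_mem _ hyC)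
        have h7 := hN.far j hj _ h6
        rw [h_mid (D.pre.γD j k hy), sub_self, abs_zero] at h7
        linarith
    · obtain ⟨⟨z, t⟩, ⟨hz, ht⟩, he⟩ := h2
      refine hT x ?_ (mem_T hx)
      rw [← he]
      exact (D.pre.Γ j).mapsTo ⟨D.pre.γD j k hz, ht⟩

variable {r : ℝ} {L : LamData D.vf.swData} {O : SwOut D.vf.swData L r}

/-- a point near `T` of a new sheet after the switch is in the root region of some sheet of the side
`X` -/
theorem exists_root (h1 : r < 1) {X : Bool} {T : Set (Fin 3 → ℝ)}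
    (hN : D.Near X T)
    (hR1 : ∀ i, side i = X → ∀ x, D.Nr T x → x ∈ D.vf.N i → |D.vf.s i x| ≤ r →
      x ∈ L.PP r (Sum.inl i)) {x : E} (hx : D.Nr T x) {j : ι} (hj : x ∈ O.B j) :
    side j = X ∧ x ∈ L.PP r (Sum.inl j) := by
  obtain ⟨m, hm, h2 | ⟨d, hd, h2⟩⟩ := (O.B_eq j x).1 hj
  · set i := LamData.sheet D.vf.swData m with hi
    have hxN : x ∈ D.vf.N i := h2.1
    have hs : side i = X := by
      by_contra h
      exact not_mem_N hN hx h hxN
    have h3 := hR1 i hs x hx hxN h2.2.2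
    have h4 : m = Sum.inl i := by
      rcases m with i' | ⟨k, Y⟩
      · rfl
      · exfalso
        exact disjoint_left.1 (LamData.PP_disj (L := L) h1 (n := Sum.inl i)
          (show (Sum.inl i : ι ⊕ _) ≠ Sum.inr (k, Y) by simp)) h2 h3
    have h5 : j = i := by
      by_contra hne
      exact disjoint_left.1 (O.V_disj j i hne) hm (h4 ▸ O.root i)
    rw [h5]
    exact ⟨hs, h3⟩
  · exfalso
    have h3 : x ∈ D.vf.N (D.vf.swData.sh d.1 (!X)) := SwData.K_sub (D := D.vf.swData) d.1 (!X) h2.1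
    refine not_mem_N hN hx ?_ h3
    have h4 : side (D.vf.swData.sh d.1 (!X)) = !X := D.vf.swData.sh_side d.1 (!X)
    rw [h4]
    cases X <;> simp

/-- **(R2)** -/
theorem not_mem_B (h1 : r < 1) {X : Bool} {T : Set (Fin 3 → ℝ)}
    (hN : D.Near X T)
    (hR1 : ∀ i, side i = X → ∀ x, D.Nr T x → x ∈ D.vf.N i → |D.vf.s i x| ≤ r →
      x ∈ L.PP r (Sum.inl i)) {x : E} (hx : D.Nr T x) {j : ι} (hj : side j ≠ X) : x ∉ O.B j :=
  fun h => hj (exists_root h1 hN hR1 hx h).1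

/-- **(R3')** -/
theorem mem_root (h1 : r < 1) {X : Bool} {T : Set (Fin 3 → ℝ)}
    (hN : D.Near X T)
    (hR1 : ∀ i, side i = X → ∀ x, D.Nr T x → x ∈ D.vf.N i → |D.vf.s i x| ≤ r →
      x ∈ L.PP r (Sum.inl i)) {x : E} (hx : D.Nr T x) {i : ι} (hi : x ∈ O.B i) :
    x ∈ L.PP r (Sum.inl i) ∧ O.b i x = D.vf.s i x := by
  have h2 := (exists_root h1 hN hR1 hx hi).2
  refine ⟨h2, ?_⟩
  have h3 := O.level_P i _ (O.root i) x h2
  rw [O.sign_root i, one_mul] at h3
  exact h3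

/-- **[KEEP]** -/
theorem keep (h0 : 0 ≤ r) (h1 : r < 1) {q : ℝ} (hq : q ≤ 1) {g : ConHomeo U (Icc lo hi)}
    (img : ∀ i, g.toFun '' O.B i = {y | y ∈ Icc lo hi ∧ |y (ax (side i)) - c i| ≤ r * w i})
    (lev : ∀ i, ∀ x ∈ O.B i, (g.toFun x (ax (side i)) - c i) / w i = O.b i x)
    (fib : ∀ i, ∀ z ∈ L.PP r (Sum.inl i), D.vf.s i z = 0 → (∀ j, side j ≠ side i → z ∉ O.B j) →
      ∀ t, |t| ≤ q * r → g.toFun ((D.vf.Gam i).toFun (z, t)) =
        slide (ax (side i)) (c i) (w i) (g.toFun z, t))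
    {X : Bool} {T : Set (Fin 3 → ℝ)}
    (hN : D.Near X T)
    (hR1 : ∀ i, side i = X → ∀ x, D.Nr T x → x ∈ D.vf.N i → |D.vf.s i x| ≤ r →
      x ∈ L.PP r (Sum.inl i))
    {M : Set E} (hMU : M ⊆ U) (hMV : ∀ q, Disjoint M (interior (D.K.C q)))
    (hMT : D.h.toFun '' M ⊆ T)
    (hM : ∀ i, side i = X → ∀ x ∈ U, ∀ x' ∈ U, |D.h.toFun x (ax (side i)) - c i| ≤ w i →
      |D.h.toFun x' (ax (side i)) - c i| ≤ w i →
      (∀ l, l ≠ ax (side i) → D.h.toFun x l = D.h.toFun x' l) → x ∈ M → x' ∈ M)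
    {i : ι} (hi : side i = X) {x x' : E} (hx : x ∈ U) (hx' : x' ∈ U)
    (hgx : |g.toFun x (ax (side i)) - c i| ≤ q * r * w i)
    (hgx' : |g.toFun x' (ax (side i)) - c i| ≤ q * r * w i)
    (hl : ∀ l, l ≠ ax (side i) → g.toFun x l = g.toFun x' l) (hxM : x ∈ M) : x' ∈ M := by
  have hw := (D.H.ok i).pos
  have hNr : ∀ y ∈ M, D.Nr T y := fun y hy =>
    ⟨hMU hy, Or.inl ⟨hMT (mem_image_of_mem _ hy), fun q hq => disjoint_left.1 (hMV q) hy hq⟩⟩
  have hqr : q * r ≤ r := by nlinarith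
  -- `x` is in the new band and on a common fibre
  have hxB : x ∈ O.B i := by
    have h2 : g.toFun x ∈ g.toFun '' O.B i := by
      rw [img i]
      exact ⟨g.mapsTo hx, hgx.trans (by gcongr)⟩
    obtain ⟨x₀, hx₀, he⟩ := h2
    have h3 : x₀ ∈ U := by
      obtain ⟨m, hm, h4 | ⟨d, hd, h4⟩⟩ := (O.B_eq i x₀).1 hx₀
      · exact D.N_sub _ h4.1
      · exact D.N_sub _ (SwData.K_sub (D := D.vf.swData) d.1 true h4.1)
    rwa [← g.injOn h3 hx he]
  obtain ⟨hxP, hxb⟩ := mem_root h1 hN hR1 (hNr x hxM) hxB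
  have hxN : x ∈ D.vf.N i := hxP.1
  obtain ⟨z, hz, t, ht, hzt, hzt'⟩ := exists_co_vf hxN
    fun q hq => disjoint_left.1 (hMV q) hxM hq
  have hzD : z ∈ D.pre.D i := D.pre.co_sub i hz
  have hzD' : z ∈ D.pre.D' i := D.pre.co_D' i hz
  have hzN : z ∈ D.vf.N i := by
    have h3 := (D.pre.Γ' i).mapsTo (show (z, (0:ℝ)) ∈ D.pre.D' i ×ˢ Icc (-1:ℝ) 1 from
      ⟨hzD', H142.Pre.zero_mem_I⟩)
    rwa [D.pre.Γ'_zero i hzD'] at h3
  have hzU : z ∈ U := D.N_sub i hzN
  have hzm : z ∈ mid (D.vf.N i) (D.vf.s i) := by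
    have h3 : D.vf.N i = D.pre.N' i := rfl
    have h4 : D.vf.s i = D.pre.s' i := rfl
    rw [h3, h4, D.pre.mid_eq i]
    exact hzD'
  have hgam : ∀ s : ℝ, (D.vf.Gam i).toFun (z, s) = (D.pre.Γ' i).toFun (z, s) := fun s => rfl
  have hgam' : ∀ s ∈ Icc (-1:ℝ) 1, D.h.toFun ((D.vf.Gam i).toFun (z, s)) =
      slide (ax (side i)) (c i) (w i) (D.h.toFun z, s) := fun s hs => by
    rw [hgam s, D.pre.Γ'_co i hz hs]
    exact gam_old hzD hs
  have hst : D.vf.s i x = t := by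
    have h3 := D.vf.gam_s i z hzm t ht
    rwa [hgam t, hzt'] at h3
  -- the foot point is in `M`
  have hzM : z ∈ M := by
    have h3 : D.h.toFun x = slide (ax (side i)) (c i) (w i) (D.h.toFun z, t) := by
      rw [← hgam' t ht, hgam t, hzt']
    refine hM i hi x hx z hzU ?_ ?_ (fun l hl => ?_) hxM
    · rw [h3, slide_self, add_sub_cancel_left, abs_mul, abs_of_pos hw]
      exact mul_le_of_le_one_left hw.le (abs_le.2 ht)
    · rw [h_mid hzD, sub_self, abs_zero]; exact hw.le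
    · rw [h3, slide_ne hl]
  have hzP : z ∈ L.PP r (Sum.inl i) := by
    refine ⟨hzN, ?_, ?_⟩
    · have h3 := hxP.2.1
      have e1 : (D.vf.swData.φ i).toFun x = (D.vf.phi i).toFun x := rfl
      have e2 : (D.vf.swData.φ i).toFun z = (D.vf.phi i).toFun z := rfl
      have e3 : D.vf.foot i x = z := by
        rw [← hzt', ← hgam t]
        exact VFam.foot_gam hzm ht
      have e4 : D.vf.foot i z = z := VFam.foot_of_mid hzm
      have h4 : ((D.vf.phi i).toFun x).1 = ((D.vf.phi i).toFun z).1 := by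
        rw [VFam.phi_apply hxN, VFam.phi_apply hzN, e3, e4]
      show ((D.vf.phi i).toFun z).1 ∈ _
      rw [← h4]
      exact h3
    · show |D.vf.s i z| ≤ r
      rw [hzm.2, abs_zero]
      have h5 := hxP.2.2
      exact (abs_nonneg _).trans h5
  have hfib := fib i z hzP hzm.2 fun j hj => not_mem_B h1 hN hR1 (hNr z hzM) (hi ▸ hj)
  -- the levels
  have ht' : |t| ≤ q * r := by
    have h3 : t = (g.toFun x (ax (side i)) - c i) / w i := by
      rw [lev i x hxB, hxb, hst]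
    rw [h3, abs_div, abs_of_pos hw, div_le_iff₀ hw]
    exact hgx
  obtain ⟨s, hs⟩ : ∃ s, s = (g.toFun x' (ax (side i)) - c i) / w i := ⟨_, rfl⟩
  have hs' : |s| ≤ q * r := by
    rw [hs, abs_div, abs_of_pos hw, div_le_iff₀ hw]
    exact hgx'
  have hr1 : q * r ≤ 1 := hqr.trans h1.le
  have hs1 : s ∈ Icc (-1:ℝ) 1 := abs_le.1 (hs'.trans hr1)
  have hgx1 : g.toFun x = slide (ax (side i)) (c i) (w i) (g.toFun z, t) := by
    rw [← hfib t ht', hgam t, hzt']
  have hyU : (D.vf.Gam i).toFun (z, s) ∈ U := D.N_sub i (VFam.gam_mem hzm hs1)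
  have hy : (D.vf.Gam i).toFun (z, s) = x' := by
    refine g.injOn hyU hx' ?_
    rw [hfib s hs']
    funext l
    by_cases hll : l = ax (side i)
    · subst hll
      rw [slide_self, hs]
      show c i + (g.toFun x' (ax (side i)) - c i) / w i * w i = _
      rw [div_mul_cancel₀ _ hw.ne']
      ring
    · rw [slide_ne hll, ← hl l hll, hgx1, slide_ne hll]
  have hx'h : D.h.toFun x' = slide (ax (side i)) (c i) (w i) (D.h.toFun z, s) := by
    rw [← hy, hgam' s hs1]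
  refine hM i hi z hzU x' hx' ?_ ?_ (fun l hll => ?_) hzM
  · rw [h_mid hzD, sub_self, abs_zero]; exact hw.le
  · rw [hx'h, slide_self, add_sub_cancel_left, abs_mul, abs_of_pos hw]
    exact mul_le_of_le_one_left hw.le (abs_le.2 hs1)
  · rw [hx'h, slide_ne hll]

/-- **[KEEP]**, in the form of `BandInv` -/
theorem keep_bandInv (h0 : 0 ≤ r) (h1 : r < 1) {q : ℝ} (hq : q ≤ 1)
    {g : ConHomeo U (Icc lo hi)}
    (img : ∀ i, g.toFun '' O.B i = {y | y ∈ Icc lo hi ∧ |y (ax (side i)) - c i| ≤ r * w i})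
    (lev : ∀ i, ∀ x ∈ O.B i, (g.toFun x (ax (side i)) - c i) / w i = O.b i x)
    (fib : ∀ i, ∀ z ∈ L.PP r (Sum.inl i), D.vf.s i z = 0 → (∀ j, side j ≠ side i → z ∉ O.B j) →
      ∀ t, |t| ≤ q * r → g.toFun ((D.vf.Gam i).toFun (z, t)) =
        slide (ax (side i)) (c i) (w i) (g.toFun z, t))
    {X : Bool} {T : Set (Fin 3 → ℝ)} (hN : D.Near X T)
    (hR1 : ∀ i, side i = X → ∀ x, D.Nr T x → x ∈ D.vf.N i → |D.vf.s i x| ≤ r →
      x ∈ L.PP r (Sum.inl i))
    {M : Set E} (hMU : M ⊆ U) (hMV : ∀ q, Disjoint M (interior (D.K.C q)))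
    (hMT : D.h.toFun '' M ⊆ T)
    (hM : BandInv (fun i : {i // side i = X} => side i.1) ax (fun i => c i.1) (fun i => w i.1) U
      D.h.toFun M) :
    BandInv (fun i : {i // side i = X} => side i.1) ax (fun i => c i.1)
      (fun i => q * r * w i.1) U g.toFun M := fun i _ hx _ hx' hgx hgx' hl hxM =>
  keep h0 h1 hq img lev fib hN hR1 hMU hMV hMT (fun i hi => hM ⟨i, hi⟩) i.2 hx hx' hgx hgx' hl hxM

end P073.H79.Fib
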