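import Vale.Agent.P073.H79.PE1
import Vale.Agent.P073.H333.PD7

/-!
# P073, [PRE-2] (`p = 2`), [E6]: energies and the volume which is not covered

The twin of `H333.PD7` on `H340.PE`.
-/

namespace Vale.Agent.P073.H340

open MeasureTheory Set Filter Topology Metric Vale.Agent.P073.St Vale.Agent.P073.AB
open Vale.Agent.P073.SQ (ev)
open _root_.P073 (ConHomeo)
open _root_.P073.Net (dyc dyo IsTile SizeFn len)
open Vale.Agent.P073.H73 (MinEdge Bix ctr WLe segP onSeg)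
open Vale.Agent.P073.H194 (refine Big wH zo so co MeshOut bInt Oc cellT sInt)
open Vale.Agent.P073.H471 (wgt)
open Vale.Agent.P073.H83 (CellsG gB grho mem_gB bixOf box_bixOf cell_bixOf Fam bx Fam_sub
  bx_sub_image bx_sub_dyc)
open Vale.Agent.P073.H333 (lay gap core out base inet Mid PD0 enorm_le_add' ofReal_ev_le)
open scoped ENNReal

namespace PE

variable {p ε δ : ℝ} {Φ : ℕ → Finset (Fin 3 → ℤ) → ((Fin 3 → ℤ) → V → V) → ℝ}
  {Ω Λ : Set V} {g f : V → V} {F : V → Mat} (D : PE p ε δ Φ Ω Λ g f F)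

theorem enorm_L_le7 {z : Fin 3 → ℤ} (hz : z ∈ D.J) : ‖D.L z‖ₑ ≤ ENNReal.ofReal D.M := by
  rw [← ofReal_norm]
  exact ENNReal.ofReal_le_ofReal
    ((D.L z).opNorm_le_bound D.M0.le (D.H.above z hz))

theorem cell_disj {b b' : Bix} (hb : b ∈ D.Bx) (hb' : b' ∈ D.Bx) (hne : b ≠ b') :
    Disjoint (b.cell D.A) (b'.cell D.A) := by
  rw [Set.disjoint_left]
  intro x hx hx'
  have h := D.sep b hb b' hb' hne x hx x hx'
  rw [sub_self, norm_zero] at h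
  have : (0:ℝ) < 16 / 2 ^ D.nr := by positivity
  linarith

theorem s1 : ∑ b ∈ D.Bx, ∑ j, ∫⁻ x in b.cell D.A,
    ENNReal.ofReal (‖cl (F x) (ev j) - D.L b.1 (ev j)‖ ^ p) ≤ ENNReal.ofReal ε := by
  classical
  have hp0 : 0 ≤ p := by linarith [D.hp]
  have h1 : ∀ b : Bix, ∑ j, ∫⁻ x in b.cell D.A,
      ENNReal.ofReal (‖cl (F x) (ev j) - D.L b.1 (ev j)‖ ^ p) ≤
      3 * ∫⁻ x in b.cell D.A, ‖cl (F x) - D.L b.1‖ₑ ^ p := by
    intro b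
    calc _ ≤ ∑ _j : Fin 3, ∫⁻ x in b.cell D.A, ‖cl (F x) - D.L b.1‖ₑ ^ p :=
          Finset.sum_le_sum fun j _ => lintegral_mono fun x =>
            ofReal_ev_le hp0 (cl (F x) - D.L b.1) j
      _ = _ := by simp
  have h2 : ∑ b ∈ D.Bx, ∫⁻ x in b.cell D.A, ‖cl (F x) - D.L b.1‖ₑ ^ p ≤
      ∑ z ∈ D.J, ∫⁻ y in dyc D.v D.n z, ‖cl (F y) - D.L z‖ₑ ^ p := by
    rw [← Finset.sum_fiberwise_of_maps_to (s := D.Bx) (t := D.J) (g := fun b => b.1)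
      (H83.gB_J D.H)]
    refine Finset.sum_le_sum fun z hz => ?_
    have h3 : ∑ b ∈ D.Bx with b.1 = z, ∫⁻ x in b.cell D.A, ‖cl (F x) - D.L b.1‖ₑ ^ p =
        ∑ b ∈ D.Bx with b.1 = z, ∫⁻ x in b.cell D.A, ‖cl (F x) - D.L z‖ₑ ^ p := by
      refine Finset.sum_congr rfl fun b hb => ?_
      rw [(Finset.mem_filter.1 hb).2]
    rw [h3, ← lintegral_biUnion_finset (s := D.Bx.filter fun b => b.1 = z)
      (t := fun b => b.cell D.A)]
    · refine lintegral_mono_set ?_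
      refine iUnion₂_subset fun b hb => ?_
      obtain ⟨hb1, hb2⟩ := Finset.mem_filter.1 hb
      rw [← hb2]
      exact (H83.cell_sub_boxR D.H hb1).trans (CellsG.boxR_sub_dyc _ _ _ _)
    · intro b hb b' hb' hne
      exact D.cell_disj (Finset.mem_filter.1 hb).1 (Finset.mem_filter.1 hb').1 hne
    · intro b hb
      exact (D.closed_cell (Finset.mem_filter.1 hb).1).measurableSet
  calc _ ≤ ∑ b ∈ D.Bx, 3 * ∫⁻ x in b.cell D.A, ‖cl (F x) - D.L b.1‖ₑ ^ p :=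
        Finset.sum_le_sum fun b _ => h1 b
    _ = 3 * ∑ b ∈ D.Bx, ∫⁻ x in b.cell D.A, ‖cl (F x) - D.L b.1‖ₑ ^ p := by
        rw [Finset.mul_sum]
    _ ≤ 3 * D.εc := by
        gcongr
        exact h2.trans D.es1
    _ ≤ _ := D.b1

theorem s2 : ∑ j, ∫⁻ x in Ω \ ⋃ b ∈ D.Bx, b.cell D.A, ENNReal.ofReal (‖cl (F x) (ev j)‖ ^ p) ≤
    ENNReal.ofReal ε := by
  have hp1 : 1 ≤ p := by linarith [D.hp]
  have hp0 : 0 ≤ p := by linarith
  have h1 : ∑ j, ∫⁻ x in Ω \ ⋃ b ∈ D.Bx, b.cell D.A, ENNReal.ofReal (‖cl (F x) (ev j)‖ ^ p) ≤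
      3 * ∫⁻ x in Ω \ ⋃ b ∈ D.Bx, b.cell D.A, ‖cl (F x)‖ₑ ^ p := by
    calc _ ≤ ∑ _j : Fin 3, ∫⁻ x in Ω \ ⋃ b ∈ D.Bx, b.cell D.A, ‖cl (F x)‖ₑ ^ p :=
          Finset.sum_le_sum fun j _ => lintegral_mono fun x => ofReal_ev_le hp0 (cl (F x)) j
      _ = _ := by simp
  set S : (Fin 3 → ℤ) → Set V := fun z =>
    dyc D.v D.n z \ ⋃ b ∈ {b | b ∈ D.Bx ∧ b.1 = z}, b.cell D.A with hS
  have hsub : Ω \ ⋃ b ∈ D.Bx, b.cell D.A ⊆ (Ω \ ⋃ z ∈ D.J, dyc D.v D.n z) ∪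
      ⋃ z : D.J, S z := by
    rintro x ⟨hx, hx'⟩
    by_cases h : x ∈ ⋃ z ∈ D.J, dyc D.v D.n z
    · right
      rw [mem_iUnion₂] at h
      obtain ⟨z, hz, hxz⟩ := h
      refine mem_iUnion.2 ⟨⟨z, hz⟩, hxz, fun hcon => hx' ?_⟩
      rw [mem_iUnion₂] at hcon ⊢
      obtain ⟨b, hb, hxb⟩ := hcon
      exact ⟨b, hb.1, hxb⟩
    · exact Or.inl ⟨hx, h⟩
  have h2 : ∀ z ∈ D.J, ∫⁻ x in S z, ‖cl (F x)‖ₑ ^ p ≤
      2 ^ (p - 1) * ((∫⁻ x in dyc D.v D.n z, ‖cl (F x) - D.L z‖ₑ ^ p) +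
        ENNReal.ofReal D.M ^ p * volume (S z)) := by
    intro z hz
    calc ∫⁻ x in S z, ‖cl (F x)‖ₑ ^ p
        ≤ ∫⁻ x in S z, 2 ^ (p - 1) * (‖cl (F x) - D.L z‖ₑ ^ p + ENNReal.ofReal D.M ^ p) := by
          refine lintegral_mono fun x => ?_
          calc ‖cl (F x)‖ₑ ^ p ≤ (‖cl (F x) - D.L z‖ₑ + ‖D.L z‖ₑ) ^ p :=
                ENNReal.rpow_le_rpow (enorm_le_add' _ _) hp0
            _ ≤ 2 ^ (p - 1) * (‖cl (F x) - D.L z‖ₑ ^ p + ‖D.L z‖ₑ ^ p) :=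
                ENNReal.rpow_add_le_mul_rpow_add_rpow _ _ hp1
            _ ≤ _ := by
                gcongr
                exact D.enorm_L_le7 hz
      _ = 2 ^ (p - 1) * ((∫⁻ x in S z, ‖cl (F x) - D.L z‖ₑ ^ p) +
            ENNReal.ofReal D.M ^ p * volume (S z)) := by
          rw [lintegral_const_mul' _ _ (ENNReal.rpow_ne_top_of_nonneg (by linarith)
            (by norm_num)), lintegral_add_right' _ (by fun_prop), setLIntegral_const]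
      _ ≤ _ := by
          gcongr
          exact sdiff_subset
  calc _ ≤ 3 * ∫⁻ x in Ω \ ⋃ b ∈ D.Bx, b.cell D.A, ‖cl (F x)‖ₑ ^ p := h1
    _ ≤ 3 * ((∫⁻ x in Ω \ ⋃ z ∈ D.J, dyc D.v D.n z, ‖cl (F x)‖ₑ ^ p) +
        ∑ z ∈ D.J, ∫⁻ x in S z, ‖cl (F x)‖ₑ ^ p) := by
        gcongr
        refine (lintegral_mono_set hsub).trans ((lintegral_union_le _ _ _).trans ?_)
        gcongr
        refine (lintegral_iUnion_le _ _).trans (le_of_eq ?_)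
        rw [tsum_fintype]
        exact Finset.sum_coe_sort D.J fun z => ∫⁻ x in S z, ‖cl (F x)‖ₑ ^ p
    _ ≤ 3 * (D.εc + ∑ z ∈ D.J, 2 ^ (p - 1) *
        ((∫⁻ x in dyc D.v D.n z, ‖cl (F x) - D.L z‖ₑ ^ p) +
          ENNReal.ofReal D.M ^ p * volume (S z))) := by
        gcongr
        · exact D.es2
        · exact h2 _ ‹_›
    _ = 3 * (D.εc + 2 ^ (p - 1) * ((∑ z ∈ D.J, ∫⁻ x in dyc D.v D.n z,
          ‖cl (F x) - D.L z‖ₑ ^ p) + ENNReal.ofReal D.M ^ p * ∑ z ∈ D.J, volume (S z))) := by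
        rw [← Finset.mul_sum, Finset.sum_add_distrib, Finset.mul_sum (D.J)
          (fun z => volume (S z))]
    _ ≤ 3 * (D.εc + 2 ^ (p - 1) * (D.εc + ENNReal.ofReal D.M ^ p * D.εf)) := by
        gcongr
        · exact D.es1
        · exact D.fill
    _ ≤ _ := D.b2

end PE

end Vale.Agent.P073.H340
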