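import Vale.Agent.P073.H79.PEpre
import Vale.Agent.P073.H340.PEa
import Vale.Agent.P073.H340.PE2
import Vale.Agent.P073.H194.MeshIn2
import Vale.Agent.P073.H333.PD7

/-!
# P073, [PRE-2] (`p = 2`): the final skeleton

`SpecPre p` for `2 ≤ p < 3` from the leaves: the first stage `SpecPEa`, the second stage
`SpecPEb`, the centres `SpecCtrs2`, the classification `SpecRef2`, and the lemmas `SpecE3`,
`SpecE5` on `PE`.
-/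

namespace Vale.Agent.P073.H340

open MeasureTheory Set Filter Topology Metric Vale.Agent.P073.St Vale.Agent.P073.AB
open Vale.Agent.P073.SQ (ev)
open _root_.P073 (ConHomeo)
open _root_.P073.Net (dyc dyo IsTile SizeFn len)
open Vale.Agent.P073.H73 (Pre SpecPre)
open scoped ENNReal

/-- **[E3]** the condition on the squares and the weights of the edges -/
def SpecE3 (p : ℝ) : Prop :=
  ∀ (ε δ : ℝ) (Φ : ℕ → Finset (Fin 3 → ℤ) → ((Fin 3 → ℤ) → V → V) → ℝ) (Ω Λ : Set V)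
    (g f : V → V) (F : V → Mat) (D : PE p ε δ Φ Ω Λ g f F),
    RefOut Ω D.v D.n D.k₁ D.k₀ D.J D.Bg D.nf → D.KeySq → D.KeyEd → D.Cond ∧ D.Wle

/-- **[E5]** the sum -/
def SpecE5 (p : ℝ) : Prop :=
  ∀ (ε δ : ℝ) (Φ : ℕ → Finset (Fin 3 → ℤ) → ((Fin 3 → ℤ) → V → V) → ℝ) (Ω Λ : Set V)
    (g f : V → V) (F : V → Mat) (D : PE p ε δ Φ Ω Λ g f F),
    RefOut Ω D.v D.n D.k₁ D.k₀ D.J D.Bg D.nf → D.KeyLen → D.SumLe

/-- **[E9-B]** the second stage -/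
def SpecPEb (p : ℝ) : Prop :=
  ∀ (ε δ : ℝ) (CC : ℝ≥0∞) (Φ : ℕ → Finset (Fin 3 → ℤ) → ((Fin 3 → ℤ) → V → V) → ℝ)
    (Ω Λ : Set V) (f : V → V) (F : V → Mat), 0 < ε → 0 < δ → CC ≠ ⊤ → CtrsE p CC →
    St.IsBoundedDomain Ω → St.IsBoundedDomain Λ → St.IsHomeo Ω Λ f → St.IsSobolev p Ω f F →
    PEa p ε δ CC Ω Λ f F → ∃ g : V → V, Nonempty (PE p ε δ Φ Ω Λ g f F)

/-- the data of `Pre` from the data `PE` -/
theorem pre_of_pe {p ε δ : ℝ} {Φ : ℕ → Finset (Fin 3 → ℤ) → ((Fin 3 → ℤ) → V → V) → ℝ}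
    {Ω Λ : Set V} {g f : V → V} {F : V → Mat} (hR : SpecRef2) (h3 : SpecE3 p) (h5 : SpecE5 p)
    (D : PE p ε δ Φ Ω Λ g f F) : Nonempty (Pre p ε δ 16 Φ Ω Λ f F) := by
  have R : RefOut Ω D.v D.n D.k₁ D.k₀ D.J D.Bg D.nf := hR _ _ _ _ _ _ _ _ D.bΩ.1 D.ref79
  obtain ⟨hc, hw⟩ := h3 _ _ _ _ _ _ _ _ D R (D.keySq R) (D.keyEd R)
  exact ⟨D.pre hc hw (h5 _ _ _ _ _ _ _ _ D R (D.keyLen R))⟩

/-- **SpecPre** for `2 ≤ p < 3`, from the leaves of [PRE-2] -/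
theorem specPre_of_leaves {p : ℝ} (hR : SpecRef2) (h3 : SpecE3 p) (h5 : SpecE5 p)
    (hC : SpecCtrs2 p) (ha : SpecPEa p) (hb : SpecPEb p) : SpecPre p := by
  intro Ω Λ f F hΩ hΛ hf hF hFD ε δ Φ hε hδ
  obtain ⟨CC, hCC, hctr⟩ := hC
  obtain ⟨E⟩ := ha ε δ CC Ω Λ f F hε hδ hCC hΩ hΛ hf hF hFD
  obtain ⟨g, ⟨D⟩⟩ := hb ε δ CC Φ Ω Λ f F hε hδ hCC hctr hΩ hΛ hf hF E
  exact pre_of_pe hR h3 h5 D

end Vale.Agent.P073.H340
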